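import Vale.Agent.P216.R337.G3
import Vale.Agent.P216.H971.RD
import Vale.Agent.P216.H539.RG
import Vale.Agent.P216.H901.WangRho

/-!
# P216, block [RHO]: [R-D] and `B64.XRhoGoal` from `OmegaGoal0`
-/

namespace Vale.Agent.P216.R337

open Vale.Agent.P216.MV337

/-- **[R-D]** -/
theorem stRD : H971.StRD := by
  intro m hm M _ _ ρ hρ hU h
  obtain ⟨x₀, C, ℓ, Tp, Tm, hp, hm', η, δ, hM, hη, h1, h2⟩ :=
    exists_trivMaps (m := m) (by omega) hρ hU h
  have hη0 := hM.η0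
  exact ⟨x₀, C.toCaps, ℓ, Tp, Tm, hp, hm', ⟨C.f, C.f_cont⟩, _, _, δ, η / δ, 2 * η, C.f_x₀, h1, h2,
    by linarith, H971.mooreMap hM⟩

/-- **R2 modulo the cohomology of the based loops.** -/
theorem xRhoGoal (hO : H754B.OmegaGoal0) : B64.XRhoGoal :=
  ToXL.xRhoGoal_of hO H901.stWangF stRD

end Vale.Agent.P216.R337
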