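import Vale.Agent.P216.R337.Near
import Vale.Agent.P216.H901.Sweep
import Vale.Agent.P216.H901.WangPull
import Vale.Agent.P216.H388.TrackR
import Vale.Agent.P216.H971.RList

/-!
# P216, block [RHO], G3: the trivialisations and the approximate composition with `f`

`ApxOp f κ η R`: the self map `R` of the curves follows `f ∘ w` (slowed down by the factor `κ`) up to
`2 η` (the case of interest is 901's `apx`).  `cut_R`, `encut_R`, `lcut_R`, `enlcut_R`: `R` commutes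
with the trivialisations of the free loops and of the paths with end `x₀`, up to homotopy and, over
`Dp`, up to the reflection of the coordinates.  `trivMap`, `ptrivMap`: 971's `TrivMap`.
-/

set_option linter.all false

namespace Vale.Agent.P216.R337

open Set Filter Topology BoundedContinuousFunction
open Vale.Agent.P216.PS Vale.Agent.P216.MV337
open Vale.Agent.P216.AS (IsMap IsHtpy)
open Vale.Agent.P216.H901 (Hp SpIntl Cu cub bdc ovr tr Triv rf Ret Cls swp swp_zero swp_one swp_mem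
  swp_cont Mo apx lvl)
open Vale.Agent.P216.H456 (PF PFD lcut lcut_mem ptrivOf isCompact_PFD continuousOn_lcut
  PF_subset_PP P_subset_PF)
open Vale.Agent.P216.H388 (RCaps exists_tracks_sym exists_rcaps)
open Vale.Agent.P216.H971 (TrivMap rlC)

variable {M : Type} [MetricSpace M] [CompactSpace M]

/-- `R w` follows `f ∘ w`, slowed down by the factor `κ`. -/
structure ApxOp (f : M → M) (κ η : ℝ) (R : (ℝ →ᵇ M) → ℝ →ᵇ M) : Prop where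
  κ0 : 0 < κ
  η0 : 0 ≤ η
  cont : ∀ t, 0 ≤ t → ContinuousOn R (PP M t)
  near : ∀ w : ℝ →ᵇ M, Lip w → ∀ v, dist (R w (κ * v)) (f (w v)) ≤ 2 * η
  zero : ∀ w : ℝ →ᵇ M, Lip w → R w 0 = f (w 0)
  mem : ∀ (a b : M) (t : ℝ), 0 ≤ t → ∀ w ∈ P a b t, R w ∈ P (f a) (f b) (κ * t + η)

/-- 901's approximation. -/
theorem apxOp {f : M → M} {ρ η δ : ℝ} (h : Mo f ρ η δ) : ApxOp f (η / δ) η (apx f δ η) where
  κ0 := div_pos h.η0 h.δ0
  η0 := h.η0.le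
  cont t ht := h.apx_cont ht continuousOn_id fun _ hw => hw
  near w hw v := h.apx_close hw v
  zero w hw := h.apx_zero hw
  mem a b t _ w hw := h.apx_P hw

section swp

variable {ρ r s s' : ℝ} {σ τ : ℝ → ℝ} {E : Type} [PseudoMetricSpace E] {A : Set E}
  {F F' : E → ℝ →ᵇ M}

/-- two close families are homotopic, with the same coordinates in the cube -/
theorem hp_sweep_enc {n : ℕ} (hU : LS.UniqSeg M ρ) (hr : 0 < r) (hrρ : r < ρ)
    (h : Ret s s' σ τ) (hA : IsCompact A) (cF : ContinuousOn F A) (cF' : ContinuousOn F' A)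
    {y : E → Fin n → ℝ} (cy : ContinuousOn y A) {a b : E → M}
    (hm : ∀ x ∈ A, F x ∈ P (a x) (b x) s) (hm' : ∀ x ∈ A, F' x ∈ P (a x) (b x) s')
    (hc : ∀ x ∈ A, Cls r σ τ (F x) (F' x))
    (hy : ∀ x ∈ A, ∀ j, y x j ∈ Icc (0:ℝ) 1) {A' : Set E} (hA' : A' ⊆ A)
    (hy' : ∀ x ∈ A', ∃ j, y x j = 0 ∨ y x j = 1) {B : Set (ℝ →ᵇ M)}
    (hB : ∀ x ∈ A, P (a x) (b x) (s + s' + r) ⊆ B) :
    Hp A A' (cub n B) (bdc n B) (fun x => enc n (F x) (y x)) (fun x => enc n (F' x) (y x)) := by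
  refine hp_of_cont hA (F := fun p => enc n (swp r σ τ (F p.2) (F' p.2) p.1) (y p.2)) ?_ ?_ ?_
    ?_ ?_
  · refine enc_cont n ?_ (cy.comp continuousOn_snd fun p hp => hp.2)
    exact swp_cont (a := fun p : ℝ × E => a p.2) (b := fun p : ℝ × E => b p.2) hU hr hrρ h
      (cF.comp continuousOn_snd fun p hp => hp.2) (cF'.comp continuousOn_snd fun p hp => hp.2)
      continuousOn_fst (fun p hp => hp.1) (fun p hp => hm _ hp.2) (fun p hp => hm' _ hp.2)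
      fun p hp => hc _ hp.2
  · intro l hl x hx
    rw [mem_cub, dec1_enc, dec2_enc]
    exact ⟨hB x hx (swp_mem hU hr hrρ h (hm x hx) (hm' x hx) (hc x hx) hl), hy x hx⟩
  · intro l hl x hx
    have hx' := hA' hx
    rw [mem_bdc, mem_cub, dec1_enc, dec2_enc]
    exact ⟨⟨hB x hx' (swp_mem hU hr hrρ h (hm x hx') (hm' x hx') (hc x hx') hl), hy x hx'⟩,
      hy' x hx⟩
  · exact fun x hx => congrArg (fun e => enc n e (y x)) swp_zero
  · exact fun x hx => congrArg (fun e => enc n e (y x)) (swp_one hU hr hrρ h (hm x hx) (hm' x hx))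

end swp

/-! ### The change of the times -/

section tm

variable {κ η ℓ s : ℝ}

/-- time on the side `cut (R w)` -/
noncomputable def tσ (κ η ℓ s l : ℝ) : ℝ :=
  min (l * (κ * s + η + 2 * ℓ + η)) (κ * s + η + 2 * ℓ)

/-- time on the side `R (cut w)` -/
noncomputable def tτ (κ η ℓ s l : ℝ) : ℝ :=
  κ * vt κ η ℓ s (tσ κ η ℓ s l) + (l * (κ * s + η + 2 * ℓ + η) - tσ κ η ℓ s l)

theorem ret_cut (hκ : 0 < κ) (hη : 0 ≤ η) (hℓ : 0 ≤ ℓ) (hs : 0 ≤ s) :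
    Ret (κ * s + η + 2 * ℓ) (κ * (s + 2 * ℓ) + η) (tσ κ η ℓ s) (tτ κ η ℓ s) := by
  have h1 : 0 ≤ κ * s := mul_nonneg hκ.le hs
  have hU : 0 ≤ κ * s + η + 2 * ℓ + η := by linarith
  have c1 : Continuous (tσ κ η ℓ s) := by
    unfold tσ
    fun_prop
  have m1 : ∀ l ∈ Icc (0:ℝ) 1, tσ κ η ℓ s l ∈ Icc 0 (κ * s + η + 2 * ℓ) := fun l hl =>
    ⟨le_min (mul_nonneg hl.1 hU) (by linarith), min_le_right _ _⟩
  have v0 : ∀ u, 0 ≤ u → 0 ≤ vt κ η ℓ s u := fun u hu => by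
    unfold vt
    have := le_min hu hℓ
    have := le_max_left 0 (min ((u - ℓ) / κ) s)
    have := le_max_left 0 (u - ℓ - (κ * s + η))
    linarith
  have v1 : ∀ u, u ≤ κ * s + η + 2 * ℓ → vt κ η ℓ s u ≤ s + 2 * ℓ := fun u hu => by
    unfold vt
    have := min_le_right u ℓ
    have : max 0 (min ((u - ℓ) / κ) s) ≤ s := max_le hs (min_le_right _ _)
    have : max 0 (u - ℓ - (κ * s + η)) ≤ ℓ := max_le hℓ (by linarith)
    linarith
  refine ⟨c1.continuousOn, ?_, ?_, ?_, ?_, ?_, m1, fun l hl => ⟨?_, ?_⟩⟩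
  · have c2 := vt_cont κ η ℓ s
    have : Continuous (tτ κ η ℓ s) := by
      unfold tτ
      fun_prop
    exact this.continuousOn
  · unfold tσ
    rw [zero_mul, min_eq_left (by linarith)]
  · have e : tσ κ η ℓ s 0 = 0 := by
      unfold tσ
      rw [zero_mul, min_eq_left (by linarith)]
    rw [tτ, e, vt_one hκ hη hs hℓ]
    ring
  · unfold tσ
    rw [one_mul, min_eq_right (by linarith)]
  · have e : tσ κ η ℓ s 1 = κ * s + η + 2 * ℓ := by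
      unfold tσ
      rw [one_mul, min_eq_right (by linarith)]
    rw [tτ, e, vt_three hκ hη hs (by linarith)]
    ring
  · have h2 : tσ κ η ℓ s l ≤ l * (κ * s + η + 2 * ℓ + η) := min_le_left _ _
    have h3 := mul_nonneg hκ.le (v0 _ (m1 l hl).1)
    unfold tτ
    linarith
  · have h3 := mul_le_mul_of_nonneg_left (v1 _ (m1 l hl).2) hκ.le
    have h4 : l * (κ * s + η + 2 * ℓ + η) - tσ κ η ℓ s l ≤ η := by
      have h5 : l * (κ * s + η + 2 * ℓ + η) ≤ κ * s + η + 2 * ℓ + η :=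
        mul_le_of_le_one_left hU hl.2
      unfold tσ
      rcases le_total (l * (κ * s + η + 2 * ℓ + η)) (κ * s + η + 2 * ℓ) with h6 | h6
      · rw [min_eq_left h6]
        linarith
      · rw [min_eq_right h6]
        linarith
    unfold tτ
    linarith

/-- one-sided: time on the side `lcut (R w)` -/
noncomputable def lσ (κ η ℓ s l : ℝ) : ℝ := l * (κ * s + η + ℓ)

/-- one-sided: time on the side `R (lcut w)` -/
noncomputable def lτ (κ η ℓ s l : ℝ) : ℝ := κ * vl κ ℓ (lσ κ η ℓ s l)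

theorem ret_lcut (hκ : 0 < κ) (hη : 0 ≤ η) (hℓ : 0 ≤ ℓ) (hs : 0 ≤ s) :
    Ret (κ * s + η + ℓ) (κ * (s + ℓ) + η) (lσ κ η ℓ s) (lτ κ η ℓ s) := by
  have h1 : 0 ≤ κ * s := mul_nonneg hκ.le hs
  have hU : 0 ≤ κ * s + η + ℓ := by linarith
  have c1 : Continuous (lσ κ η ℓ s) := by
    unfold lσ
    fun_prop
  have m1 : ∀ l ∈ Icc (0:ℝ) 1, lσ κ η ℓ s l ∈ Icc 0 (κ * s + η + ℓ) := fun l hl =>
    ⟨mul_nonneg hl.1 hU, mul_le_of_le_one_left hU hl.2⟩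
  have e1 : κ * vl κ ℓ (κ * s + η + ℓ) = κ * (s + ℓ) + η := by
    rw [vl_two hκ (by linarith), mul_add, mul_div_cancel₀ _ hκ.ne']
    ring
  have v1 : ∀ u, u ≤ κ * s + η + ℓ → κ * vl κ ℓ u ≤ κ * (s + ℓ) + η := fun u hu => by
    rw [← e1]
    refine mul_le_mul_of_nonneg_left ?_ hκ.le
    unfold vl
    gcongr
  refine ⟨c1.continuousOn, ?_, ?_, ?_, ?_, ?_, m1, fun l hl => ⟨?_, v1 _ (m1 l hl).2⟩⟩
  · have c2 := vl_cont κ ℓ
    have : Continuous (lτ κ η ℓ s) := by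
      unfold lτ
      fun_prop
    exact this.continuousOn
  · rw [lσ, zero_mul]
  · rw [lτ, lσ, zero_mul, vl_one hκ hℓ, mul_zero]
  · rw [lσ, one_mul]
  · rw [lτ, lσ, one_mul, e1]
  · refine mul_nonneg hκ.le ?_
    unfold vl
    have := le_min (m1 l hl).1 hℓ
    have := le_max_left 0 ((lσ κ η ℓ s l - ℓ) / κ)
    linarith

end tm

/-! ### G3, free loops -/

section G3

variable {x₀ : M} {ℓ κ η ε r ρ s : ℝ} {T : M → ℝ → M} {D : Set M} {f : M → M}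
  {R : (ℝ →ᵇ M) → ℝ →ᵇ M}

/-- the reflected coordinates of the boundary -/
theorem rf_bdry {n : ℕ} (i : Fin n) {y : Fin n → ℝ} (h : ∃ j, y j = 0 ∨ y j = 1) :
    ∃ j, rf i y j = 0 ∨ rf i y j = 1 := by
  obtain ⟨j, hj⟩ := h
  refine ⟨j, ?_⟩
  by_cases hji : j = i
  · subst hji
    rw [H901.rf_same]
    rcases hj with hj | hj
    · right
      rw [hj, sub_zero]
    · left
      rw [hj, sub_self]
  · rw [H901.rf_ne hji]
    exact hj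

theorem ApxOp.mem_FLD (hR : ApxOp f κ η R) (hD : ∀ x ∈ D, f x ∈ D) (hs : 0 ≤ s)
    {w : ℝ →ᵇ M} (hw : w ∈ FLD D s) : R w ∈ FLD D (κ * s + η) :=
  ⟨P_subset_FL (hR.mem _ _ s hs w hw.1), by rw [hR.zero _ hw.1.1]; exact hD _ hw.2⟩

theorem cont_cut_R (hR : ApxOp f κ η R) (h : Tr D x₀ ℓ T) (hD : ∀ x ∈ D, f x ∈ D)
    (hs : 0 ≤ s) : ContinuousOn (fun w => cut T ℓ (κ * s + η) (R w)) (FLD D s) :=
  (h.continuousOn_cut (by have := mul_nonneg hR.κ0.le hs; linarith [hR.η0])).comp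
    ((hR.cont s hs).mono fun w hw => FL_subset_PP hw.1) fun w hw => hR.mem_FLD hD hs hw

theorem cont_R_cut (hR : ApxOp f κ η R) (h : Tr D x₀ ℓ T) (hs : 0 ≤ s) :
    ContinuousOn (fun w => R (cut T ℓ s w)) (FLD D s) :=
  (hR.cont (s + 2 * ℓ) (by linarith [h.nonneg])).comp (h.continuousOn_cut hs)
    fun w hw => P_subset_PP (h.cut_mem hs hw)

/-- the level of the homotopies -/
def bd (κ η ℓ r s : ℝ) : ℝ := κ * s + η + 2 * ℓ + (κ * (s + 2 * ℓ) + η) + r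

theorem cls_cut (hR : ApxOp f κ η R) (h : Tr D x₀ ℓ T) (hf0 : f x₀ = x₀)
    (hD : ∀ x ∈ D, f x ∈ D) (hT : ∀ x ∈ D, ∀ u, dist (f (T x u)) (T (f x) u) ≤ ε)
    (hr1 : 2 * η + ε ≤ r) (hr2 : 4 * η ≤ r) (hs : 0 ≤ s) {w : ℝ →ᵇ M} (hw : w ∈ FLD D s) :
    Cls r (tσ κ η ℓ s) (tτ κ η ℓ s) (cut T ℓ (κ * s + η) (R w)) (R (cut T ℓ s w)) := by
  have hℓ := h.nonneg
  have h1 : 0 ≤ κ * s := mul_nonneg hR.κ0.le hs
  exact fun l hl => near_cut h hR.κ0 hR.η0 hs hf0 hT hR.near (hR.zero _ hw.1.1) hr1 hr2 hw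
    (hR.mem_FLD hD hs hw) (mul_nonneg hl.1 (by linarith [hR.η0]))

theorem cut_R_mem (hR : ApxOp f κ η R) (h : Tr D x₀ ℓ T) (hD : ∀ x ∈ D, f x ∈ D) (hs : 0 ≤ s)
    {w : ℝ →ᵇ M} (hw : w ∈ FLD D s) :
    cut T ℓ (κ * s + η) (R w) ∈ P x₀ x₀ (κ * s + η + 2 * ℓ) :=
  h.cut_mem (by have := mul_nonneg hR.κ0.le hs; linarith [hR.η0]) (hR.mem_FLD hD hs hw)

theorem R_cut_mem (hR : ApxOp f κ η R) (h : Tr D x₀ ℓ T) (hf0 : f x₀ = x₀) (hs : 0 ≤ s)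
    {w : ℝ →ᵇ M} (hw : w ∈ FLD D s) : R (cut T ℓ s w) ∈ P x₀ x₀ (κ * (s + 2 * ℓ) + η) := by
  have := hR.mem _ _ _ (by linarith [h.nonneg] : 0 ≤ s + 2 * ℓ) _ (h.cut_mem hs hw)
  rwa [hf0] at this

/-- **`R` commutes with cutting, up to homotopy.** -/
theorem cut_R (hR : ApxOp f κ η R) (hU : LS.UniqSeg M ρ) (hDc : IsClosed D) (h : Tr D x₀ ℓ T)
    (hf0 : f x₀ = x₀) (hD : ∀ x ∈ D, f x ∈ D)
    (hT : ∀ x ∈ D, ∀ u, dist (f (T x u)) (T (f x) u) ≤ ε) (hr : 0 < r) (hrρ : r < ρ)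
    (hr1 : 2 * η + ε ≤ r) (hr2 : 4 * η ≤ r) (hs : 0 ≤ s) {S : ℝ} (hS : bd κ η ℓ r s ≤ S) :
    Hp (ovr evz (fun t => FL M t) D s) ∅ (P x₀ x₀ S) ∅
      (fun w => cut T ℓ (κ * s + η) (R w)) (fun w => R (cut T ℓ s w)) :=
  H901.hp_sweep (a := fun _ => x₀) (b := fun _ => x₀) hU hr hrρ (isCompact_ovr hDc hs)
    (empty_subset _) (ret_cut hR.κ0 hR.η0 h.nonneg hs) (cont_cut_R hR h hD hs)
    (cont_R_cut hR h hs) (fun w hw => cut_R_mem hR h hD hs hw)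
    (fun w hw => R_cut_mem hR h hf0 hs hw)
    (fun w hw => cls_cut hR h hf0 hD hT hr1 hr2 hs hw) (fun w hw => P_mono hS)
    fun w hw => hw.elim

/-- **`R` commutes with the trivialisation over `Dp`, up to homotopy**, and the reflection `rf i`. -/
theorem encut_R {n : ℕ} (C : Caps n M x₀) (i : Fin n) (hR : ApxOp f κ η R) (hU : LS.UniqSeg M ρ)
    (h : Tr C.Dp x₀ ℓ T) (hf0 : f x₀ = x₀) (hD : ∀ x ∈ C.Dp, f x ∈ C.Dp)
    (hφ : ∀ x ∈ C.Dp, C.φ (f x) = rf i (C.φ x))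
    (hT : ∀ x ∈ C.Dp, ∀ u, dist (f (T x u)) (T (f x) u) ≤ ε) (hr : 0 < r) (hrρ : r < ρ)
    (hr1 : 2 * η + ε ≤ r) (hr2 : 4 * η ≤ r) (hs : 0 ≤ s) {S : ℝ} (hS : bd κ η ℓ r s ≤ S) :
    Hp (ovr evz (fun t => FL M t) C.Dp s) (ovr evz (fun t => FL M t) (C.Dp ∩ C.Dm) s)
      (cub n (P x₀ x₀ S)) (bdc n (P x₀ x₀ S))
      (fun w => enc n (cut T ℓ (κ * s + η) (R w)) (C.φ (R w 0)))
      (fun w => enc n (R (cut T ℓ s w)) (rf i (C.φ (w 0)))) := by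
  have e : ∀ w ∈ FLD C.Dp s, C.φ (R w 0) = rf i (C.φ (w 0)) := fun w hw => by
    rw [hR.zero _ hw.1.1]
    exact hφ _ hw.2
  have cφ : ContinuousOn (fun w : ℝ →ᵇ M => C.φ (R w 0)) (ovr evz (fun t => FL M t) C.Dp s) := by
    refine C.φ_cont.comp (continuousOn_eval ((hR.cont s hs).mono fun w hw => FL_subset_PP hw.1)
      continuousOn_const) fun w hw => ?_
    rw [hR.zero _ hw.1.1]
    exact hD _ hw.2
  have key := hp_sweep_enc (n := n) (y := fun w : ℝ →ᵇ M => C.φ (R w 0)) (a := fun _ => x₀)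
    (b := fun _ => x₀) hU hr hrρ (ret_cut hR.κ0 hR.η0 h.nonneg hs) (isCompact_ovr C.closed_p hs)
    (cont_cut_R hR h hD hs) (cont_R_cut hR h hs) cφ (fun w hw => cut_R_mem hR h hD hs hw)
    (fun w hw => R_cut_mem hR h hf0 hs hw)
    (fun w hw => cls_cut hR h hf0 hD hT hr1 hr2 hs hw)
    (fun w hw => by
      rw [hR.zero _ hw.1.1]
      exact C.φ_mem _ (hD _ hw.2))
    (A' := ovr evz (fun t => FL M t) (C.Dp ∩ C.Dm) s) (fun w hw => ⟨hw.1, hw.2.1⟩)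
    (fun w hw => by
      rw [e w ⟨hw.1, hw.2.1⟩]
      exact rf_bdry i ((C.bdry _ hw.2.1).1 hw.2.2))
    (B := P x₀ x₀ S) (fun w hw => P_mono hS)
  obtain ⟨G, hG, hG', g0, g1⟩ := key
  exact ⟨G, hG, hG', g0, fun w hw => (g1 hw).trans (by
    change enc n (R (cut T ℓ s w)) (C.φ (R w 0)) = _
    rw [e w hw])⟩

/-! ### G3, paths with end `x₀` -/

theorem ApxOp.mem_PFD (hR : ApxOp f κ η R) (hf0 : f x₀ = x₀) (hD : ∀ x ∈ D, f x ∈ D)
    (hs : 0 ≤ s) {w : ℝ →ᵇ M} (hw : w ∈ PFD x₀ D s) : R w ∈ PFD x₀ D (κ * s + η) := by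
  have h1 := hR.mem _ _ s hs w (H456.mem_PF_iff.1 hw.1)
  rw [hf0] at h1
  exact ⟨P_subset_PF h1, by rw [hR.zero _ hw.1.1]; exact hD _ hw.2⟩

theorem cont_lcut_R (hR : ApxOp f κ η R) (h : Tr D x₀ ℓ T) (hf0 : f x₀ = x₀)
    (hD : ∀ x ∈ D, f x ∈ D) (hs : 0 ≤ s) :
    ContinuousOn (fun w => lcut T ℓ (R w)) (PFD x₀ D s) :=
  (continuousOn_lcut h (t := κ * s + η)
    (by have := mul_nonneg hR.κ0.le hs; linarith [hR.η0])).comp
    ((hR.cont s hs).mono fun w hw => PF_subset_PP hw.1) fun w hw => hR.mem_PFD hf0 hD hs hw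

theorem cont_R_lcut (hR : ApxOp f κ η R) (h : Tr D x₀ ℓ T) (hs : 0 ≤ s) :
    ContinuousOn (fun w => R (lcut T ℓ w)) (PFD x₀ D s) :=
  (hR.cont (s + ℓ) (by linarith [h.nonneg])).comp (continuousOn_lcut h hs)
    fun w hw => P_subset_PP (lcut_mem h hs hw)

/-- the level of the homotopies -/
def bl (κ η ℓ r s : ℝ) : ℝ := κ * s + η + ℓ + (κ * (s + ℓ) + η) + r

theorem cls_lcut (hR : ApxOp f κ η R) (h : Tr D x₀ ℓ T) (hf0 : f x₀ = x₀)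
    (hD : ∀ x ∈ D, f x ∈ D) (hT : ∀ x ∈ D, ∀ u, dist (f (T x u)) (T (f x) u) ≤ ε)
    (hr1 : 2 * η + ε ≤ r) (hr2 : 4 * η ≤ r) (hs : 0 ≤ s) {w : ℝ →ᵇ M} (hw : w ∈ PFD x₀ D s) :
    Cls r (lσ κ η ℓ s) (lτ κ η ℓ s) (lcut T ℓ (R w)) (R (lcut T ℓ w)) :=
  fun l hl => near_lcut h hR.κ0 hR.η0 hs hT hR.near (hR.zero _ hw.1.1) hr1 hr2 hw
    (hR.mem_PFD hf0 hD hs hw) _

theorem lcut_R_mem (hR : ApxOp f κ η R) (h : Tr D x₀ ℓ T) (hf0 : f x₀ = x₀)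
    (hD : ∀ x ∈ D, f x ∈ D) (hs : 0 ≤ s) {w : ℝ →ᵇ M} (hw : w ∈ PFD x₀ D s) :
    lcut T ℓ (R w) ∈ P x₀ x₀ (κ * s + η + ℓ) :=
  lcut_mem h (by have := mul_nonneg hR.κ0.le hs; linarith [hR.η0]) (hR.mem_PFD hf0 hD hs hw)

theorem R_lcut_mem (hR : ApxOp f κ η R) (h : Tr D x₀ ℓ T) (hf0 : f x₀ = x₀) (hs : 0 ≤ s)
    {w : ℝ →ᵇ M} (hw : w ∈ PFD x₀ D s) : R (lcut T ℓ w) ∈ P x₀ x₀ (κ * (s + ℓ) + η) := by
  have := hR.mem _ _ _ (by linarith [h.nonneg] : 0 ≤ s + ℓ) _ (lcut_mem h hs hw)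
  rwa [hf0] at this

/-- **`R` commutes with cutting, up to homotopy.** -/
theorem lcut_R (hR : ApxOp f κ η R) (hU : LS.UniqSeg M ρ) (hDc : IsClosed D) (h : Tr D x₀ ℓ T)
    (hf0 : f x₀ = x₀) (hD : ∀ x ∈ D, f x ∈ D)
    (hT : ∀ x ∈ D, ∀ u, dist (f (T x u)) (T (f x) u) ≤ ε) (hr : 0 < r) (hrρ : r < ρ)
    (hr1 : 2 * η + ε ≤ r) (hr2 : 4 * η ≤ r) (hs : 0 ≤ s) {S : ℝ} (hS : bl κ η ℓ r s ≤ S) :
    Hp (ovr evz (fun t => PF x₀ t) D s) ∅ (P x₀ x₀ S) ∅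
      (fun w => lcut T ℓ (R w)) (fun w => R (lcut T ℓ w)) :=
  H901.hp_sweep (a := fun _ => x₀) (b := fun _ => x₀) hU hr hrρ (isCompact_PFD hDc hs)
    (empty_subset _) (ret_lcut hR.κ0 hR.η0 h.nonneg hs) (cont_lcut_R hR h hf0 hD hs)
    (cont_R_lcut hR h hs) (fun w hw => lcut_R_mem hR h hf0 hD hs hw)
    (fun w hw => R_lcut_mem hR h hf0 hs hw)
    (fun w hw => cls_lcut hR h hf0 hD hT hr1 hr2 hs hw) (fun w hw => P_mono hS)
    fun w hw => hw.elim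

/-- **`R` commutes with the trivialisation over `Dp`, up to homotopy**, and the reflection `rf i`. -/
theorem enlcut_R {n : ℕ} (C : Caps n M x₀) (i : Fin n) (hR : ApxOp f κ η R) (hU : LS.UniqSeg M ρ)
    (h : Tr C.Dp x₀ ℓ T) (hf0 : f x₀ = x₀) (hD : ∀ x ∈ C.Dp, f x ∈ C.Dp)
    (hφ : ∀ x ∈ C.Dp, C.φ (f x) = rf i (C.φ x))
    (hT : ∀ x ∈ C.Dp, ∀ u, dist (f (T x u)) (T (f x) u) ≤ ε) (hr : 0 < r) (hrρ : r < ρ)
    (hr1 : 2 * η + ε ≤ r) (hr2 : 4 * η ≤ r) (hs : 0 ≤ s) {S : ℝ} (hS : bl κ η ℓ r s ≤ S) :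
    Hp (ovr evz (fun t => PF x₀ t) C.Dp s) (ovr evz (fun t => PF x₀ t) (C.Dp ∩ C.Dm) s)
      (cub n (P x₀ x₀ S)) (bdc n (P x₀ x₀ S))
      (fun w => enc n (lcut T ℓ (R w)) (C.φ (R w 0)))
      (fun w => enc n (R (lcut T ℓ w)) (rf i (C.φ (w 0)))) := by
  have e : ∀ w ∈ PFD x₀ C.Dp s, C.φ (R w 0) = rf i (C.φ (w 0)) := fun w hw => by
    rw [hR.zero _ hw.1.1]
    exact hφ _ hw.2
  have cφ : ContinuousOn (fun w : ℝ →ᵇ M => C.φ (R w 0)) (ovr evz (fun t => PF x₀ t) C.Dp s) := by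
    refine C.φ_cont.comp (continuousOn_eval ((hR.cont s hs).mono fun w hw => PF_subset_PP hw.1)
      continuousOn_const) fun w hw => ?_
    rw [hR.zero _ hw.1.1]
    exact hD _ hw.2
  have key := hp_sweep_enc (n := n) (y := fun w : ℝ →ᵇ M => C.φ (R w 0)) (a := fun _ => x₀)
    (b := fun _ => x₀) hU hr hrρ (ret_lcut hR.κ0 hR.η0 h.nonneg hs)
    (isCompact_PFD C.closed_p hs)
    (cont_lcut_R hR h hf0 hD hs) (cont_R_lcut hR h hs) cφ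
    (fun w hw => lcut_R_mem hR h hf0 hD hs hw)
    (fun w hw => R_lcut_mem hR h hf0 hs hw)
    (fun w hw => cls_lcut hR h hf0 hD hT hr1 hr2 hs hw)
    (fun w hw => by
      rw [hR.zero _ hw.1.1]
      exact C.φ_mem _ (hD _ hw.2))
    (A' := ovr evz (fun t => PF x₀ t) (C.Dp ∩ C.Dm) s) (fun w hw => ⟨hw.1, hw.2.1⟩)
    (fun w hw => by
      rw [e w ⟨hw.1, hw.2.1⟩]
      exact rf_bdry i ((C.bdry _ hw.2.1).1 hw.2.2))
    (B := P x₀ x₀ S) (fun w hw => P_mono hS)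
  obtain ⟨G, hG, hG', g0, g1⟩ := key
  exact ⟨G, hG, hG', g0, fun w hw => (g1 hw).trans (by
    change enc n (R (lcut T ℓ w)) (C.φ (R w 0)) = _
    rw [e w hw])⟩

end G3

/-! ### 971's `TrivMap` -/

section TrivMap

theorem cuM_enc {E E' : Type} (f : E → E') (n : ℕ) (e : E) (y : Fin n → ℝ) :
    H901.cuM f n (enc n e y) = enc n (f e) y := by
  induction n with
  | zero => rfl
  | succ n ih =>
    change (H901.cuM f n (enc n e (Fin.init y)), y (Fin.last n)) = _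
    rw [ih]
    rfl

theorem rlC_enc {E : Type} {m : ℕ} (e : E) (y : Fin (m + 1) → ℝ) :
    rlC (enc (m + 1) e y) = enc (m + 1) e (rf (Fin.last m) y) := by
  change (enc m e (Fin.init y), 1 - y (Fin.last m)) =
    (enc m e (Fin.init (rf (Fin.last m) y)), rf (Fin.last m) y (Fin.last m))
  rw [H901.rf_same]
  congr 2
  funext j
  exact (H901.rf_ne (Fin.castSucc_lt_last j).ne y).symm

variable {x₀ : M} {ℓ η δ ε r ρ : ℝ} {m : ℕ} (C : RCaps (m + 1) M x₀ (Fin.last m))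
  {Tp Tm : M → ℝ → M}

/-- **G3 for the free loops.** -/
theorem trivMap (hM : Mo C.f ρ η δ) (hp : Tr C.Dp x₀ ℓ Tp) (hm : Tr C.Dm x₀ ℓ Tm)
    (hTp : ∀ x ∈ C.Dp, ∀ u, dist (C.f (Tp x u)) (Tp (C.f x) u) ≤ ε)
    (hTm : ∀ x ∈ C.Dm, ∀ u, dist (C.f (Tm x u)) (Tm (C.f x) u) ≤ ε)
    (hr : 0 < r) (hrρ : r < ρ) (hr1 : 2 * η + ε ≤ r) (hr2 : 4 * η ≤ r) :
    TrivMap (trivOf C.toCaps hp hm) C.f (lvl η δ) (apx C.f δ η) (apx C.f δ η) where
  φ_pos t ht := ht.trans_le (hM.le_lvl ht.le)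
  φ_mono s t _ h := hM.lvl_mono h
  R_map t ht := map_of_cont (isCompact_FL ht.le)
    (hM.apx_cont ht.le continuousOn_id fun w hw => FL_subset_PP hw) fun w hw => hM.apx_FL hw
  S_map t ht := map_of_cont (isCompact_P _ _ _)
    (hM.apx_cont ht.le continuousOn_id fun w hw => P_subset_PP hw) fun w hw => by
      have := hM.apx_P hw
      rwa [C.f_x₀] at this
  ev_R t ht w hw := hM.apx_zero hw.1
  f_p x hx := (C.f_Dp x).2 hx
  f_m x hx := (C.f_Dm x).2 hx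
  tm t ht := by
    have hℓ := hp.nonneg
    have hn : 0 ≤ lvl η δ t := ht.le.trans (hM.le_lvl ht.le)
    have hn' : 0 ≤ lvl η δ (t + 2 * ℓ) :=
      (by linarith : 0 ≤ t + 2 * ℓ).trans (hM.le_lvl (by linarith))
    have e : bd (η / δ) η ℓ r t = lvl η δ t + 2 * ℓ + lvl η δ (t + 2 * ℓ) + r := rfl
    refine ⟨bd (η / δ) η ℓ r t, by rw [e]; linarith, by rw [e]; linarith, ?_⟩
    exact cut_R (apxOp hM) hM.uniq C.closed_m hm C.f_x₀ (fun x hx => (C.f_Dm x).2 hx) hTm hr hrρ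
      hr1 hr2 ht.le le_rfl
  tp t ht := by
    have hℓ := hp.nonneg
    have hn : 0 ≤ lvl η δ t := ht.le.trans (hM.le_lvl ht.le)
    have hn' : 0 ≤ lvl η δ (t + 2 * ℓ) :=
      (by linarith : 0 ≤ t + 2 * ℓ).trans (hM.le_lvl (by linarith))
    have e : bd (η / δ) η ℓ r t = lvl η δ t + 2 * ℓ + lvl η δ (t + 2 * ℓ) + r := rfl
    refine ⟨bd (η / δ) η ℓ r t, by rw [e]; linarith, by rw [e]; linarith, ?_⟩
    obtain ⟨G, hG, hG', g0, g1⟩ := encut_R C.toCaps (Fin.last m) (apxOp hM) hM.uniq hp C.f_x₀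
      (fun x hx => (C.f_Dp x).2 hx) (fun x _ => C.φ_f x) hTp hr hrρ hr1 hr2 ht.le le_rfl
    refine ⟨G, hG, hG', g0, fun w hw => (g1 hw).trans ?_⟩
    change _ = rlC (H901.cuM (apx C.f δ η) (m + 1) (enc (m + 1) (cut Tp ℓ t w) (C.φ (w 0))))
    rw [cuM_enc, rlC_enc]

/-- **G3 for the paths with end `x₀`.** -/
theorem ptrivMap (hM : Mo C.f ρ η δ) (hp : Tr C.Dp x₀ ℓ Tp) (hm : Tr C.Dm x₀ ℓ Tm)
    (hTp : ∀ x ∈ C.Dp, ∀ u, dist (C.f (Tp x u)) (Tp (C.f x) u) ≤ ε)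
    (hTm : ∀ x ∈ C.Dm, ∀ u, dist (C.f (Tm x u)) (Tm (C.f x) u) ≤ ε)
    (hr : 0 < r) (hrρ : r < ρ) (hr1 : 2 * η + ε ≤ r) (hr2 : 4 * η ≤ r) :
    TrivMap (ptrivOf C.toCaps hp hm) C.f (lvl η δ) (apx C.f δ η) (apx C.f δ η) where
  φ_pos t ht := ht.trans_le (hM.le_lvl ht.le)
  φ_mono s t _ h := hM.lvl_mono h
  R_map t ht := map_of_cont (H456.isCompact_PF x₀ ht.le)
    (hM.apx_cont ht.le continuousOn_id fun w hw => PF_subset_PP hw) fun w hw => by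
      have := hM.apx_P (H456.mem_PF_iff.1 hw)
      rw [C.f_x₀] at this
      exact P_subset_PF this
  S_map t ht := map_of_cont (isCompact_P _ _ _)
    (hM.apx_cont ht.le continuousOn_id fun w hw => P_subset_PP hw) fun w hw => by
      have := hM.apx_P hw
      rwa [C.f_x₀] at this
  ev_R t ht w hw := hM.apx_zero hw.1
  f_p x hx := (C.f_Dp x).2 hx
  f_m x hx := (C.f_Dm x).2 hx
  tm t ht := by
    have hℓ := hp.nonneg
    have hn : 0 ≤ lvl η δ t := ht.le.trans (hM.le_lvl ht.le)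
    have hn' : 0 ≤ lvl η δ (t + ℓ) :=
      (by linarith : 0 ≤ t + ℓ).trans (hM.le_lvl (by linarith))
    have e : bl (η / δ) η ℓ r t = lvl η δ t + ℓ + lvl η δ (t + ℓ) + r := rfl
    refine ⟨bl (η / δ) η ℓ r t, by rw [e]; linarith, by rw [e]; linarith, ?_⟩
    exact lcut_R (apxOp hM) hM.uniq C.closed_m hm C.f_x₀ (fun x hx => (C.f_Dm x).2 hx) hTm hr hrρ
      hr1 hr2 ht.le le_rfl
  tp t ht := by
    have hℓ := hp.nonneg
    have hn : 0 ≤ lvl η δ t := ht.le.trans (hM.le_lvl ht.le)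
    have hn' : 0 ≤ lvl η δ (t + ℓ) :=
      (by linarith : 0 ≤ t + ℓ).trans (hM.le_lvl (by linarith))
    have e : bl (η / δ) η ℓ r t = lvl η δ t + ℓ + lvl η δ (t + ℓ) + r := rfl
    refine ⟨bl (η / δ) η ℓ r t, by rw [e]; linarith, by rw [e]; linarith, ?_⟩
    obtain ⟨G, hG, hG', g0, g1⟩ := enlcut_R C.toCaps (Fin.last m) (apxOp hM) hM.uniq hp C.f_x₀
      (fun x hx => (C.f_Dp x).2 hx) (fun x _ => C.φ_f x) hTp hr hrρ hr1 hr2 ht.le le_rfl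
    refine ⟨G, hG, hG', g0, fun w hw => (g1 hw).trans ?_⟩
    change _ = rlC (H901.cuM (apx C.f δ η) (m + 1) (enc (m + 1) (lcut Tp ℓ w) (C.φ (w 0))))
    rw [cuM_enc, rlC_enc]

/-- **[R-A] + [R-C] + [R-D]**: symmetric caps, tracks and the approximation `R`, with both `TrivMap`s. -/
theorem exists_trivMaps (hm : 1 ≤ m) (hρ : 0 < ρ) (hU : LS.UniqSeg M ρ)
    (h : Nonempty (M ≃ₜ Metric.sphere (0 : EuclideanSpace ℝ (Fin (m + 1 + 1))) 1)) :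
    ∃ (x₀ : M) (C : RCaps (m + 1) M x₀ (Fin.last m)) (ℓ : ℝ) (Tp Tm : M → ℝ → M)
      (hp : Tr C.Dp x₀ ℓ Tp) (hm : Tr C.Dm x₀ ℓ Tm) (η δ : ℝ), Mo C.f ρ η δ ∧ 3 * η ≤ ρ / 8 ∧
      TrivMap (trivOf C.toCaps hp hm) C.f (lvl η δ) (apx C.f δ η) (apx C.f δ η) ∧
      TrivMap (ptrivOf C.toCaps hp hm) C.f (lvl η δ) (apx C.f δ η) (apx C.f δ η) := by
  obtain ⟨e⟩ := h
  have hne : (Fin.last m) ≠ (0 : Fin (m + 1)) := by
    intro h0
    have := congrArg Fin.val h0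
    simp at this
    omega
  obtain ⟨x₀, ⟨C⟩⟩ := exists_rcaps e (by omega : 1 ≤ m + 1) hne
  obtain ⟨ℓ, Tp, Tm, hp, hm', hTp, hTm⟩ := exists_tracks_sym C hρ hU (by positivity : 0 < ρ / 8)
  obtain ⟨δ, hM⟩ := H901.exists_mo C.f_cont hU (by positivity : 0 < ρ / 24) (by linarith)
  refine ⟨x₀, C, ℓ, Tp, Tm, hp, hm', ρ / 24, δ, hM, by linarith, ?_, ?_⟩
  · exact trivMap C hM hp hm' hTp hTm (r := ρ / 2) (by positivity) (by linarith) (by linarith)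
      (by linarith)
  · exact ptrivMap C hM hp hm' hTp hTm (r := ρ / 2) (by positivity) (by linarith) (by linarith)
      (by linarith)

end TrivMap

end Vale.Agent.P216.R337
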