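import Vale.Agent.P216.MV337.Main
import Vale.Agent.P216.H456.PTriv

/-!
# P216, block [RHO], G3: cutting and the approximate composition with `f` are close

`vt`: the change of time. `near_cut`: for `w` a loop with origin in `D`, the curves
`R (cut w)` and `cut (R w)` are close after the change of time, if `R w` follows `f ∘ w` and the
tracks are almost equivariant.
-/

set_option linter.all false

namespace Vale.Agent.P216.R337

open Set Filter Topology BoundedContinuousFunction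
open Vale.Agent.P216.PS Vale.Agent.P216.MV337

/-- the change of time -/
noncomputable def vt (κ η ℓ s u : ℝ) : ℝ :=
  min u ℓ + max 0 (min ((u - ℓ) / κ) s) + max 0 (u - ℓ - (κ * s + η))

theorem vt_cont (κ η ℓ s : ℝ) : Continuous (vt κ η ℓ s) := by
  unfold vt
  fun_prop

section vt

variable {κ η ℓ s u : ℝ}

theorem vt_one (hκ : 0 < κ) (hη : 0 ≤ η) (hs : 0 ≤ s) (h : u ≤ ℓ) : vt κ η ℓ s u = u := by
  have h1 : (u - ℓ) / κ ≤ 0 := div_nonpos_of_nonpos_of_nonneg (by linarith) hκ.le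
  have h2 : 0 ≤ κ * s := mul_nonneg hκ.le hs
  rw [vt, min_eq_left h, max_eq_left ((min_le_left _ _).trans h1), max_eq_left (by linarith)]
  ring

theorem vt_two (hκ : 0 < κ) (hs : 0 ≤ s) (h : ℓ ≤ u) (h' : u ≤ ℓ + (κ * s + η)) :
    vt κ η ℓ s u = ℓ + min ((u - ℓ) / κ) s := by
  have h1 : 0 ≤ (u - ℓ) / κ := div_nonneg (by linarith) hκ.le
  rw [vt, min_eq_right h, max_eq_right (le_min h1 hs), max_eq_left (by linarith)]
  ring

theorem vt_three (hκ : 0 < κ) (hη : 0 ≤ η) (hs : 0 ≤ s) (h : ℓ + (κ * s + η) ≤ u) :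
    vt κ η ℓ s u = ℓ + s + (u - ℓ - (κ * s + η)) := by
  have h1 : s ≤ (u - ℓ) / κ := by
    rw [le_div_iff₀ hκ]
    nlinarith
  have h2 : 0 ≤ κ * s := mul_nonneg hκ.le hs
  rw [vt, min_eq_right (by linarith), min_eq_right h1, max_eq_right hs, max_eq_right (by linarith)]

end vt

section cut

variable {M : Type} [MetricSpace M] [CompactSpace M] {x₀ : M} {ℓ : ℝ} {T : M → ℝ → M} {D : Set M}
  {t : ℝ} {w : ℝ →ᵇ M}

theorem cut_one (h : Tr D x₀ ℓ T) (ht : 0 ≤ t) (hw : w ∈ FLD D t) {u : ℝ} (hu : u ≤ ℓ) :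
    cut T ℓ t w u = T (w 0) (ℓ - u) := by
  have e0 : w 0 = T (w 0) 0 := (h.left _ hw.2 0 le_rfl).symm
  have e1 : w t = T (w 0) 0 := (hw.1.2.2 t le_rfl).trans e0
  have l1 : Lip (cj ℓ t (T (w 0)) w) := lip_cj (h.lip _ hw.2) hw.1.1 ht e0 e1
  change mo (cj ℓ t (T (w 0)) w) u = _
  rw [l1.mo_apply, cj_one hu]

theorem cut_two (h : Tr D x₀ ℓ T) (ht : 0 ≤ t) (hw : w ∈ FLD D t) {u : ℝ} (hu : ℓ ≤ u)
    (hu' : u ≤ ℓ + t) : cut T ℓ t w u = w (u - ℓ) := by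
  have e0 : w 0 = T (w 0) 0 := (h.left _ hw.2 0 le_rfl).symm
  have e1 : w t = T (w 0) 0 := (hw.1.2.2 t le_rfl).trans e0
  have l1 : Lip (cj ℓ t (T (w 0)) w) := lip_cj (h.lip _ hw.2) hw.1.1 ht e0 e1
  change mo (cj ℓ t (T (w 0)) w) u = _
  rw [l1.mo_apply, cj_two e0 hu hu']

theorem cut_three (h : Tr D x₀ ℓ T) (ht : 0 ≤ t) (hw : w ∈ FLD D t) {u : ℝ} (hu : ℓ + t ≤ u) :
    cut T ℓ t w u = T (w 0) (u - ℓ - t) := by
  have e0 : w 0 = T (w 0) 0 := (h.left _ hw.2 0 le_rfl).symm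
  have e1 : w t = T (w 0) 0 := (hw.1.2.2 t le_rfl).trans e0
  have l1 : Lip (cj ℓ t (T (w 0)) w) := lip_cj (h.lip _ hw.2) hw.1.1 ht e0 e1
  change mo (cj ℓ t (T (w 0)) w) u = _
  rw [l1.mo_apply, cj_three e0 ht e1 hu]

/-- **Closeness of `R (cut w)` and `cut (R w)`.** -/
theorem near_cut (h : Tr D x₀ ℓ T) {f : M → M} {R : (ℝ →ᵇ M) → ℝ →ᵇ M} {κ η ε r s : ℝ}
    (hκ : 0 < κ) (hη : 0 ≤ η) (hs : 0 ≤ s) (hf0 : f x₀ = x₀)
    (hT : ∀ x ∈ D, ∀ u, dist (f (T x u)) (T (f x) u) ≤ ε)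
    (hR : ∀ w : ℝ →ᵇ M, Lip w → ∀ v, dist (R w (κ * v)) (f (w v)) ≤ 2 * η)
    (hR0 : R w 0 = f (w 0)) (hr : 2 * η + ε ≤ r) (hr' : 4 * η ≤ r)
    (hw : w ∈ FLD D s) (hRw : R w ∈ FLD D (κ * s + η)) {u : ℝ} (hu : 0 ≤ u) :
    dist (R (cut T ℓ s w) (κ * vt κ η ℓ s (min u (κ * s + η + 2 * ℓ)) +
      (u - min u (κ * s + η + 2 * ℓ))))
      (cut T ℓ (κ * s + η) (R w) (min u (κ * s + η + 2 * ℓ))) ≤ r := by
  have hℓ := h.nonneg
  have hκs : 0 ≤ κ * s := mul_nonneg hκ.le hs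
  have ht : 0 ≤ κ * s + η := by linarith
  have hc : Lip (cut T ℓ s w) := (h.cut_mem hs hw).1
  rcases le_total u (κ * s + η + 2 * ℓ) with h0 | h0
  · rw [min_eq_left h0, sub_self, add_zero]
    have e := hR _ hc (vt κ η ℓ s u)
    rcases le_total u ℓ with h1 | h1
    · rw [vt_one hκ hη hs h1, cut_one h hs hw h1] at e
      rw [vt_one hκ hη hs h1, cut_one h ht hRw h1, hR0]
      exact (dist_triangle _ _ _).trans ((add_le_add e (hT _ hw.2 _)).trans hr)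
    rcases le_total u (ℓ + (κ * s + η)) with h2 | h2
    · have h3 : 0 ≤ (u - ℓ) / κ := div_nonneg (by linarith) hκ.le
      rw [vt_two hκ hs h1 h2, cut_two h hs hw (by linarith [le_min h3 hs])
        (by linarith [min_le_right ((u - ℓ) / κ) s]), add_sub_cancel_left] at e
      rw [vt_two hκ hs h1 h2, cut_two h ht hRw h1 h2]
      have e2 := hR _ hw.1.1 ((u - ℓ) / κ)
      have e3 : w (min ((u - ℓ) / κ) s) = w ((u - ℓ) / κ) := by
        rcases le_total ((u - ℓ) / κ) s with h4 | h4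
        · rw [min_eq_left h4]
        · rw [min_eq_right h4, hw.1.2.2 s le_rfl, hw.1.2.2 _ h4]
      rw [mul_div_cancel₀ _ hκ.ne'] at e2
      rw [e3] at e
      rw [dist_comm] at e2
      exact (dist_triangle _ _ _).trans ((add_le_add e e2).trans (by linarith))
    · rw [vt_three hκ hη hs h2, cut_three h hs hw (by linarith)] at e
      rw [vt_three hκ hη hs h2, cut_three h ht hRw h2, hR0]
      have e4 : ℓ + s + (u - ℓ - (κ * s + η)) - ℓ - s = u - ℓ - (κ * s + η) := by ring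
      rw [e4] at e
      exact (dist_triangle _ _ _).trans ((add_le_add e (hT _ hw.2 _)).trans hr)
  · rw [min_eq_right h0, vt_three hκ hη hs (by linarith)]
    have e1 : κ * (ℓ + s + (κ * s + η + 2 * ℓ - ℓ - (κ * s + η))) + (u - (κ * s + η + 2 * ℓ)) =
        κ * (s + 2 * ℓ + (u - (κ * s + η + 2 * ℓ)) / κ) := by
      rw [mul_add κ (s + 2 * ℓ), mul_div_cancel₀ _ hκ.ne']
      ring
    have e2 := hR _ hc (s + 2 * ℓ + (u - (κ * s + η + 2 * ℓ)) / κ)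
    have e3 : 0 ≤ (u - (κ * s + η + 2 * ℓ)) / κ := div_nonneg (by linarith) hκ.le
    rw [(h.cut_mem hs hw).2.2 _ (by linarith), hf0] at e2
    rw [e1, (h.cut_mem ht hRw).2.2 _ le_rfl]
    exact e2.trans (by linarith)

/-! ### One-sided version -/

open Vale.Agent.P216.H456 (PF PFD lcut lj lcut_apply lcut_mem lj_left lj_right)

/-- the change of time, one-sided -/
noncomputable def vl (κ ℓ u : ℝ) : ℝ := min u ℓ + max 0 ((u - ℓ) / κ)

theorem vl_one {κ u : ℝ} (hκ : 0 < κ) (h : u ≤ ℓ) : vl κ ℓ u = u := by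
  have h1 : (u - ℓ) / κ ≤ 0 := div_nonpos_of_nonpos_of_nonneg (by linarith) hκ.le
  rw [vl, min_eq_left h, max_eq_left h1, add_zero]

theorem vl_two {κ u : ℝ} (hκ : 0 < κ) (h : ℓ ≤ u) : vl κ ℓ u = ℓ + (u - ℓ) / κ := by
  have h1 : 0 ≤ (u - ℓ) / κ := div_nonneg (by linarith) hκ.le
  rw [vl, min_eq_right h, max_eq_right h1]

theorem vl_cont (κ ℓ : ℝ) : Continuous (vl κ ℓ) := by
  unfold vl
  fun_prop

/-- **Closeness of `R (lcut w)` and `lcut (R w)`.** -/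
theorem near_lcut (h : Tr D x₀ ℓ T) {f : M → M} {R : (ℝ →ᵇ M) → ℝ →ᵇ M} {κ η ε r s : ℝ}
    (hκ : 0 < κ) (hη : 0 ≤ η) (hs : 0 ≤ s)
    (hT : ∀ x ∈ D, ∀ u, dist (f (T x u)) (T (f x) u) ≤ ε)
    (hR : ∀ w : ℝ →ᵇ M, Lip w → ∀ v, dist (R w (κ * v)) (f (w v)) ≤ 2 * η)
    (hR0 : R w 0 = f (w 0)) (hr : 2 * η + ε ≤ r) (hr' : 4 * η ≤ r)
    (hw : w ∈ PFD x₀ D s) (hRw : R w ∈ PFD x₀ D (κ * s + η)) (u : ℝ) :
    dist (R (lcut T ℓ w) (κ * vl κ ℓ u)) (lcut T ℓ (R w) u) ≤ r := by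
  have hc : Lip (lcut T ℓ w) := (lcut_mem h hs hw).1
  have e := hR _ hc (vl κ ℓ u)
  rcases le_total u ℓ with h1 | h1
  · rw [vl_one hκ h1, lcut_apply h hw, lj_left h1] at e
    rw [vl_one hκ h1, lcut_apply h hRw, lj_left h1, hR0]
    exact (dist_triangle _ _ _).trans ((add_le_add e (hT _ hw.2 _)).trans hr)
  · have h3 : 0 ≤ (u - ℓ) / κ := div_nonneg (by linarith) hκ.le
    rw [vl_two hκ h1, lcut_apply h hw, lj_right (h.left _ hw.2 0 le_rfl).symm (by linarith),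
      add_sub_cancel_left] at e
    rw [vl_two hκ h1, lcut_apply h hRw, lj_right (h.left _ hRw.2 0 le_rfl).symm h1]
    have e2 := hR _ hw.1.1 ((u - ℓ) / κ)
    rw [mul_div_cancel₀ _ hκ.ne'] at e2
    rw [dist_comm] at e2
    exact (dist_triangle _ _ _).trans ((add_le_add e e2).trans (by linarith))

end cut

end Vale.Agent.P216.R337
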